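import Mathlib

open Complex

namespace Vale.Agent.Results.P036.PathCriterion

theorem card_big_le {s : Finset ℕ} {f : ℕ → ℝ} {X : ℝ} (hf : ∀ i ∈ s, 0 ≤ f i)
    (hX : ∑ i ∈ s, f i ≤ X) {c : ℝ} (hc : 0 < c) :
    ((s.filter fun i => 4 * X / c < f i).card : ℝ) * 4 ≤ c := by
  set B := s.filter fun i => 4 * X / c < f i
  rcases B.eq_empty_or_nonempty with h | ⟨j, hj⟩
  · rw [h]; simp [hc.le]
  have hBX : ∑ i ∈ B, f i ≤ X :=
    (Finset.sum_le_sum_of_subset_of_nonneg (Finset.filter_subset _ _)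
      fun i hi _ => hf i hi).trans hX
  have hlt : (B.card : ℝ) * (4 * X / c) < X := by
    refine lt_of_lt_of_le ?_ hBX
    calc (B.card : ℝ) * (4 * X / c) = ∑ _i ∈ B, 4 * X / c := by simp
      _ < _ := Finset.sum_lt_sum_of_nonempty ⟨j, hj⟩ fun i hi => (Finset.mem_filter.1 hi).2
  have hX0 : 0 ≤ X := (Finset.sum_nonneg hf).trans hX
  have hXpos : 0 < X := by
    rcases hX0.lt_or_eq with h | h
    · exact h
    · rw [← h] at hlt; simp at hlt
  have h4 : (B.card : ℝ) * (4 * X) < X * c := by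
    have := mul_lt_mul_of_pos_right hlt hc
    rwa [mul_assoc, div_mul_cancel₀ _ hc.ne'] at this
  nlinarith

theorem abs_im_le_norm_mul_abs_arg (z : ℂ) : |z.im| ≤ ‖z‖ * |arg z| := by
  rw [← Complex.norm_mul_sin_arg z, abs_mul, abs_norm]
  exact mul_le_mul_of_nonneg_left Real.abs_sin_le_abs (norm_nonneg z)

/-- A polygonal path of length at most `L` and total turning at most `T` through `N + 2` points
has three consecutive vertices spanning area at most `32 L ^ 2 T / N ^ 3`. -/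
theorem path_area :
    ∀ (N : ℕ), 0 < N → ∀ (q : ℕ → ℂ) (L T : ℝ),
      (∑ i ∈ Finset.range (N + 1), ‖q (i + 1) - q i‖) ≤ L →
      (∑ i ∈ Finset.range N,
        |arg ((starRingEnd ℂ) (q (i + 1) - q i) * (q (i + 2) - q (i + 1)))|) ≤ T →
      ∃ i < N,
        |(q (i + 1) - q i).re * (q (i + 2) - q i).im
            - (q (i + 1) - q i).im * (q (i + 2) - q i).re| / 2 ≤
          32 * L ^ 2 * T / (N : ℝ) ^ 3 := by
  intro N hN q L T hL hT
  have hc : (0 : ℝ) < (N : ℝ) := by exact_mod_cast hN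
  set s := Finset.range N
  set a : ℕ → ℝ := fun i => ‖q (i + 1) - q i‖ with ha
  set t : ℕ → ℝ := fun i =>
    |arg ((starRingEnd ℂ) (q (i + 1) - q i) * (q (i + 2) - q (i + 1)))| with ht
  have h1 : ∑ i ∈ s, a i ≤ L := by
    refine le_trans ?_ hL
    rw [Finset.sum_range_succ]
    exact le_add_of_nonneg_right (norm_nonneg _)
  have h2 : ∑ i ∈ s, a (i + 1) ≤ L := by
    refine le_trans ?_ hL
    rw [Finset.sum_range_succ']
    exact le_add_of_nonneg_right (norm_nonneg _)
  have b1 := card_big_le (fun i _ => norm_nonneg _) h1 hc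
  have b2 := card_big_le (f := fun i => a (i + 1)) (fun i _ => norm_nonneg _) h2 hc
  have b3 := card_big_le (f := t) (fun i _ => abs_nonneg _) hT hc
  have hex : ∃ i ∈ s, a i ≤ 4 * L / N ∧ a (i + 1) ≤ 4 * L / N ∧ t i ≤ 4 * T / N := by
    by_contra hno
    have hsub : s ⊆ (s.filter fun i => 4 * L / (N : ℝ) < a i) ∪
        (s.filter fun i => 4 * L / (N : ℝ) < a (i + 1)) ∪
        (s.filter fun i => 4 * T / (N : ℝ) < t i) := by
      intro i hi
      by_contra hi'
      simp only [Finset.mem_union, Finset.mem_filter, hi, true_and, not_or, not_lt] at hi'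
      exact hno ⟨i, hi, hi'.1.1, hi'.1.2, hi'.2⟩
    have hcard := (Finset.card_le_card hsub).trans (Finset.card_union_le _ _)
    have hcard2 := hcard.trans (Nat.add_le_add_right (Finset.card_union_le _ _) _)
    rw [Finset.card_range] at hcard2
    have : (N : ℝ) ≤ _ := Nat.cast_le.2 hcard2
    push_cast at this
    linarith
  obtain ⟨i, hi, e1, e2, e3⟩ := hex
  refine ⟨i, Finset.mem_range.1 hi, ?_⟩
  set u := q (i + 1) - q i
  set v := q (i + 2) - q (i + 1)
  have hw : q (i + 2) - q i = u + v := by simp only [u, v]; ring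
  have him : u.re * (u + v).im - u.im * (u + v).re = ((starRingEnd ℂ) u * v).im := by
    simp [Complex.mul_im, Complex.add_im, Complex.add_re]
    ring
  rw [hw, him]
  have h := abs_im_le_norm_mul_abs_arg ((starRingEnd ℂ) u * v)
  rw [norm_mul, Complex.norm_conj] at h
  have e1' : ‖u‖ ≤ 4 * L / N := e1
  have e2' : ‖v‖ ≤ 4 * L / N := e2
  have e3' : |arg ((starRingEnd ℂ) u * v)| ≤ 4 * T / N := e3
  have hL0 : 0 ≤ 4 * L / (N : ℝ) := (norm_nonneg u).trans e1'
  have h' : ‖u‖ * ‖v‖ * |arg ((starRingEnd ℂ) u * v)| ≤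
      (4 * L / N) * (4 * L / N) * (4 * T / N) :=
    mul_le_mul (mul_le_mul e1' e2' (norm_nonneg v) hL0) e3' (abs_nonneg _)
      (mul_nonneg hL0 hL0)
  calc _ ≤ (4 * L / N) * (4 * L / N) * (4 * T / N) / 2 := by linarith
    _ = _ := by ring

/-- If some `N + 2` points of `P` can be ordered along a polygonal path of length at most `L`
and total turning at most `T`, then `P` has a triangle of area at most `32 L ^ 2 T / N ^ 3`. -/
theorem result :
    ∀ (P : Finset ℂ) (N : ℕ), 0 < N → ∀ (q : ℕ → ℂ) (L T : ℝ),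
      (∀ i < N + 2, q i ∈ P) → Set.InjOn q (Set.Iio (N + 2)) →
      (∑ i ∈ Finset.range (N + 1), ‖q (i + 1) - q i‖) ≤ L →
      (∑ i ∈ Finset.range N,
        |arg ((starRingEnd ℂ) (q (i + 1) - q i) * (q (i + 2) - q (i + 1)))|) ≤ T →
      ∃ a ∈ P, ∃ b ∈ P, ∃ c ∈ P, a ≠ b ∧ a ≠ c ∧ b ≠ c ∧
        |(b - a).re * (c - a).im - (b - a).im * (c - a).re| / 2 ≤
          32 * L ^ 2 * T / (N : ℝ) ^ 3 := by
  intro P N hN q L T hmem hinj hL hT
  obtain ⟨i, hi, h⟩ := path_area N hN q L T hL hT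
  refine ⟨q i, hmem i (by omega), q (i + 1), hmem _ (by omega), q (i + 2),
    hmem _ (by omega), ?_, ?_, ?_, h⟩ <;>
    · intro e
      have := hinj (by simp only [Set.mem_Iio]; omega) (by simp only [Set.mem_Iio]; omega) e
      omega

end Vale.Agent.Results.P036.PathCriterion
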